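import Vale.Agent.P305Y.Dyn

/-!
# The invariant of the levels during a reconstruction
-/

namespace Vale.Agent.P305G

open Vale.Agent.P305E Vale.Agent.P305C Vale.Agent.P305M Vale.Agent.P305Q Vale.Agent.P305Y

/-- As `Trg`; only the levels below `m` are in use. -/
def TrM (s : St) (m top lo : ℕ) (em tl : List ℕ) : Prop :=
  ∃ l, lo ≤ l ∧ l ≤ top ∧ (l < m → ∀ z ∈ em, ¬ s.bad z → z ∈ s.G l) ∧
    (∀ j < l, lo ≤ j + 1 → j < m → ∀ z ∈ em, ¬ s.bad z → z ∈ s.pend j) ∧
    ∀ j < l, lo ≤ j → ∀ y ∈ tl, s.tch j y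

/-- As `SI`; only the levels below `m` are in use. -/
structure MI (π : Par) (s : St) (m top : ℕ) : Prop where
  lv : ∀ j < m, LvlAt s.it s.cs (s.G j) (s.L j) π.κ (π.k j) π.γ (π.p j)
  G : ∀ j < m, ∀ z ∈ s.G j, z < s.nx ∧ s.dep z ≤ j
  P : ∀ j < m, ∀ z ∈ (s.L j).P, z < s.nx ∧ s.dep z = j + 1 ∧ s.re z = none
  pend : ∀ j < m, ∀ z ∈ s.pend j, z < s.nx ∧ s.dep z ≤ j + 1
  dag : Dag s.cs s.nx
  all : ∀ z < s.nx, wlen s.it (s.cs z) ≤ (s.it z).2.2.1 ∧ (s.cs z).length ≤ π.p π.Lm ∧
    ∀ c ∈ s.cs z, s.dep c.1 < s.dep z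
  badlt : ∀ z, s.bad z → z < s.nx
  virt : ∀ z < s.nx, ¬ s.bad z → s.re z = none → ∃ j < m, z ∈ (s.L j).P
  real : ∀ z < s.nx, s.re z ≠ none → s.cs z = [] ∧ s.dep z = 0
  fresh : ∀ z, s.nx ≤ z → s.re z = none
  num : ∀ z < s.nx, (s.it z).1 ≤ π.M 0 ∧ (s.it z).2.1 ≤ π.M 0 ∧ 1 ≤ (s.it z).2.2.1 ∧
    (s.it z).2.2.1 ≤ π.M (s.dep z) ∧ (s.it z).2.2.2.natAbs ≤ π.M (s.dep z) ∧ s.dep z ≤ π.Lm + 1
  B : ∀ j < m, ∀ z ∈ s.G j, s.bad z → s.tch j (s.it z).1 ∧ s.tch j (s.it z).2.1 ∧
    ∀ y ∈ (s.L j).par z, s.bad y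
  K : ∀ j, j + 1 < m → ∀ z ∈ (s.L j).K, ¬ s.bad z → z ∈ s.G (j + 1)
  Ti : ∀ j < m, ∀ z, z ∈ s.G j ∨ z ∈ (s.L j).P → s.bad z →
    TrM s m top (j + 1) ((s.L j).em z) ((s.L j).tl z)
  Tc : ∀ j < m, ∀ C, s.brk j C → TrM s m top (j + 1) ((s.L j).cem C) ((s.L j).ctl C)
  Tr : ∀ z < s.nx, ¬ s.bad z → s.re z ≠ none → TrM s m top 0 [z] [(s.it z).1, (s.it z).2.1]
  rem : ∀ j < m, (∀ w ∈ s.rem j, w ∈ (s.L j).cand) ∧
    ∀ w ∈ (s.L j).cand, w ∈ s.rem j ∨ ∃ c ∈ w, s.bad c.1

variable {π : Par} {s s' : St} {m top : ℕ}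

theorem trM_iff {lo : ℕ} {em tl : List ℕ} :
    TrM s (π.Lm + 1) top lo em tl ↔ Trg π s top lo em tl := by
  simp only [TrM, Trg, Nat.lt_succ_iff]

theorem MI.of_SI (h : SI π s top) : MI π s (π.Lm + 1) top :=
  { h with
    lv := fun j a => h.lv j (by omega), G := fun j a => h.G j (by omega)
    P := fun j a => h.P j (by omega), pend := fun j a => h.pend j (by omega)
    virt := fun z a b c => (h.virt z a b c).imp fun j d => ⟨by omega, d.2⟩
    B := fun j a => h.B j (by omega), K := fun j a => h.K j (by omega)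
    Ti := fun j a z b c => trM_iff.2 (h.Ti j (by omega) z b c)
    Tc := fun j a C b => trM_iff.2 (h.Tc j (by omega) C b)
    Tr := fun z a b c => trM_iff.2 (h.Tr z a b c), rem := fun j a => h.rem j (by omega) }

theorem MI.to_SI (h : MI π s (π.Lm + 1) top) (hK : (s.L π.Lm).K = []) : SI π s top :=
  { h with
    lv := fun j a => h.lv j (by omega), G := fun j a => h.G j (by omega)
    P := fun j a => h.P j (by omega), pend := fun j a => h.pend j (by omega)
    virt := fun z a b c => (h.virt z a b c).imp fun j d => ⟨by omega, d.2⟩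
    B := fun j a => h.B j (by omega), K := fun j a => h.K j (by omega), last := hK
    Ti := fun j a z b c => trM_iff.1 (h.Ti j (by omega) z b c)
    Tc := fun j a C b => trM_iff.1 (h.Tc j (by omega) C b)
    Tr := fun z a b c => trM_iff.1 (h.Tr z a b c), rem := fun j a => h.rem j (by omega) }

theorem TrM.mono {top' lo : ℕ} {em tl : List ℕ} (h : TrM s m top lo em tl) (ht : top ≤ top') :
    TrM s m top' lo em tl := h.imp fun _ a => ⟨a.1, a.2.1.trans ht, a.2.2⟩

theorem MI.mono {top' : ℕ} (h : MI π s m top) (ht : top ≤ top') : MI π s m top' :=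
  { h with
    Ti := fun j a z b c => (h.Ti j a z b c).mono ht, Tc := fun j a C b => (h.Tc j a C b).mono ht
    Tr := fun z a b c => (h.Tr z a b c).mono ht }

/-- The state with a new array of bad items. -/
abbrev setBad (s : St) (a : Arr Bool) : St := (s.1, (a, s.2.1.2), s.2.2)

/-- The levels from `l` on are destroyed. -/
theorem MI.cut (h : MI π s m top) {l : ℕ} (hl : l ≤ m) {a : Arr Bool} {D : List ℕ}
    (ha : ∀ z, a.get z = true ↔ s.bad z ∨ z ∈ D)
    (hD : ∀ z, z ∈ D ↔ ∃ j, l ≤ j ∧ j < m ∧ z ∈ (s.L j).P) : MI π (setBad s a) l l := by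
  have nb : ∀ z, ¬ (setBad s a).bad z → ¬ s.bad z := fun z b c => b ((ha z).2 (Or.inl c))
  have old : ∀ z, s.dep z ≤ l → (setBad s a).bad z → s.bad z := fun z b c =>
    ((ha z).1 c).resolve_right fun d => by
      obtain ⟨j, d1, d2, d3⟩ := (hD z).1 d
      have := (h.P j d2 z d3).2.1
      omega
  have tr : ∀ {lo em tl}, lo ≤ l → TrM s m top lo em tl → TrM (setBad s a) l l lo em tl := by
    rintro lo em tl b ⟨i, c1, c2, c3, c4, c5⟩
    refine ⟨min i l, by omega, by omega, fun d z hz hb => ?_,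
      fun j d1 d2 d3 z hz hb => c4 j (by omega) d2 (by omega) z hz (nb z hb),
      fun j d1 d2 => c5 j (by omega) d2⟩
    rw [show min i l = i by omega]
    exact c3 (by omega) z hz (nb z hb)
  refine { h with
    lv := fun j a => h.lv j (by omega), G := fun j a => h.G j (by omega)
    P := fun j a => h.P j (by omega), pend := fun j a => h.pend j (by omega)
    badlt := fun z b => ?_, virt := fun z b c d => ?_, B := fun j b z c d => ?_
    K := fun j b z c d => h.K j (by omega) z c (nb z d), Ti := fun j b z c d => ?_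
    Tc := fun j b C c => tr b (h.Tc j (by omega) C c)
    Tr := fun z b c d => tr l.zero_le (h.Tr z b (nb z c) d)
    rem := fun j b => ⟨(h.rem j (by omega)).1, fun w c => ((h.rem j (by omega)).2 w c).imp_right
      fun ⟨x, d1, d2⟩ => ⟨x, d1, (ha _).2 (Or.inl d2)⟩⟩ }
  · rcases (ha z).1 b with c | c
    · exact h.badlt z c
    · obtain ⟨j, -, d2, d3⟩ := (hD z).1 c
      exact (h.P j d2 z d3).1
  · obtain ⟨j, d1, d2⟩ := h.virt z b (nb z c) d
    refine ⟨j, ?_, d2⟩
    by_contra e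
    exact c ((ha z).2 (Or.inr ((hD z).2 ⟨j, by omega, d1, d2⟩)))
  · obtain ⟨d1, d2, d3⟩ := h.B j (by omega) z c
      (old z ((h.G j (by omega) z c).2.trans b.le) d)
    exact ⟨d1, d2, fun y e => (ha y).2 (Or.inl (d3 y e))⟩
  · refine tr b (h.Ti j (by omega) z c (old z ?_ d))
    rcases c with c | c
    · exact (h.G j (by omega) z c).2.trans b.le
    · exact (h.P j (by omega) z c).2.1.le.trans b

theorem par_mono (hπ : π.OK) : Monotone π.M := monotone_nat_of_le_succ fun j => by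
  rw [hπ.M]
  exact Nat.le_mul_of_pos_left _ (hπ.k j).1

theorem wlen_le {it : ℕ → RA} {w : SW} {M : ℕ} (h : ∀ c ∈ w, (it c.1).2.2.1 ≤ M) :
    wlen it w ≤ w.length * M := by
  induction w with
  | nil => simp
  | cons c w ih =>
    have := ih fun c hc => h c (by simp [hc])
    have := h c (by simp)
    simp only [wlen_cons, List.length_cons, Nat.add_mul]
    omega

theorem wg_le {it : ℕ → RA} {w : SW} {M : ℕ} (h : ∀ c ∈ w, (it c.1).2.2.2.natAbs ≤ M) :
    (wg it w).natAbs ≤ w.length * M := by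
  induction w with
  | nil => simp
  | cons c w ih =>
    have := ih fun c hc => h c (by simp [hc])
    have := h c (by simp)
    have a := Int.natAbs_add_le (sg c.2 * (it c.1).2.2.2) (wg it w)
    rw [Int.natAbs_mul, natAbs_sg] at a
    simp only [wg_cons, List.length_cons, Nat.add_mul]
    omega

/-- The state with the new level `m`. -/
abbrev setLv (s : St) (m : ℕ) (S : Sto) (dp : Arr ℕ) (L : Lvl) (G : List ℕ) : St :=
  (S, (s.2.1.1, dp, s.2.1.2.2), s.2.2.set m (L, G, Arr.const false, [], L.cand))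

/-- The items from which the level `m + 1` is built. -/
theorem MI.src (h : MI π s (m + 1) top) {z : ℕ} (hz : z ∈ (s.L m).K ∨ z ∈ s.pend m) :
    z < s.nx ∧ s.dep z ≤ m + 1 := by
  rcases hz with a | a
  · rcases (h.lv m (by omega)).K z a with b | b
    · exact ⟨(h.G m (by omega) z b).1, (h.G m (by omega) z b).2.trans (by omega)⟩
    · exact ⟨(h.P m (by omega) z b).1, (h.P m (by omega) z b).2.1.le⟩
  · exact h.pend m (by omega) z a

/-- The level `m + 1` is built. -/
theorem MI.ext (h : MI π s (m + 1) (m + 1)) (hπ : π.OK) (hm : m + 1 ≤ π.Lm) {S : Sto} {L : Lvl}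
    {G : List ℕ} {dp : Arr ℕ}
    (hG : ∀ z, z ∈ G ↔ (z ∈ (s.L m).K ∨ z ∈ s.pend m) ∧ ¬ s.bad z)
    (hL : LvlOK s.1 S G L π.κ (π.k (m + 1)) π.γ (π.p (m + 1)))
    (hd : ∀ z, dp.get z = if z ∈ L.P then m + 2 else s.dep z) :
    MI π (setLv s (m + 1) S dp L G) (m + 2) (m + 1) := by
  have g1 : ∀ z ∈ G, z < s.nx ∧ s.dep z ≤ m + 1 := fun z a => h.src ((hG z).1 a).1
  have oi : ∀ z < s.nx, S.1.get z = s.it z := fun z a => (hL.old z a).1
  have oc : ∀ z < s.nx, S.2.1.get z = s.cs z := fun z a => (hL.old z a).2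
  have od : ∀ z < s.nx, dp.get z = s.dep z := fun z a => by
    rw [hd, if_neg fun b => by have := ((hL.new z).1 b).1; exact absurd a (not_lt.2 this)]
  have nd : ∀ z ∈ L.P, dp.get z = m + 2 := fun z a => by rw [hd, if_pos a]
  have nx : s.nx ≤ S.2.2 := hL.nx
  have sp : ∀ z < S.2.2, z < s.nx ∨ z ∈ L.P := fun z a =>
    (Nat.lt_or_ge z s.nx).imp_right fun b => (hL.new z).2 ⟨b, a⟩
  have e0 : ∀ j < m + 1, (s.2.2.set (m + 1) (L, G, Arr.const false, [], L.cand)).get j =
      s.2.2.get j := fun j a => Arr.get_set_ne _ (by omega) _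
  have e1 : (s.2.2.set (m + 1) (L, G, Arr.const false, [], L.cand)).get (m + 1) =
      (L, G, Arr.const false, [], L.cand) := Arr.get_set_self _ _ _
  have nbP : ∀ z ∈ L.P, ¬ s.bad z := fun z a b => by
    have := h.badlt z b
    have := ((hL.new z).1 a).1
    exact absurd ‹z < _› (not_lt.2 this)
  have hM := par_mono hπ
  have at' := hL.at fun z a => (g1 z a).1
  have tc : ∀ j < m + 1, ∀ y, s.tch j y → (setLv s (m + 1) S dp L G).tch j y := fun j a y b => by
    simpa only [St.tch, St.L, St.brk, e0 j a] using b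
  have tr : ∀ {lo em tl}, lo ≤ m + 1 → TrM s (m + 1) (m + 1) lo em tl →
      TrM (setLv s (m + 1) S dp L G) (m + 2) (m + 1) lo em tl := by
    rintro lo em tl b ⟨i, c1, c2, c3, c4, c5⟩
    refine ⟨i, c1, c2, fun _ z hz hb => ?_, fun j d1 d2 d3 z hz hb => ?_,
      fun j d1 d2 y hy => tc j (by omega) y (c5 j d1 d2 y hy)⟩
    · rcases c2.lt_or_eq with d | rfl
      · simpa only [St.G, e0 i d] using c3 d z hz hb
      · simpa only [St.G, e1] using (hG z).2 ⟨Or.inr (c4 m (by omega) b (by omega) z hz hb), hb⟩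
    · simpa only [St.pend, e0 j (by omega)] using c4 j d1 d2 (by omega) z hz hb
  have cs : ∀ {j}, j < m + 2 → j < m + 1 ∨ j = m + 1 := fun a => by omega
  refine ⟨fun j a => ?_, fun j a z => ?_, fun j a z => ?_, fun j a z => ?_, fun z a c b => ?_,
    fun z a => ?_, fun z a => (h.badlt z a).trans_le nx, fun z a b c => ?_, fun z a b => ?_,
    fun z a => h.fresh z (nx.trans a), fun z a => ?_, fun j a z => ?_, fun j a z => ?_,
    fun j a z => ?_, fun j a C => ?_, fun z a b c => ?_, fun j a => ?_⟩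
  · rcases cs a with a | rfl
    · simp only [St.G, St.L, e0 j a]
      refine (h.lv j a).congr (fun z b => oi z ?_) fun z b => oc z (h.P j a z b).1
      exact b.elim (fun b => (h.G j a z b).1) fun b => (h.P j a z b).1
    · simpa only [St.G, St.L, e1] using at'
  · rcases cs a with a | rfl
    · simp only [St.G, e0 j a]
      exact fun b => ⟨(h.G j a z b).1.trans_le nx, (od z (h.G j a z b).1).trans_le (h.G j a z b).2⟩
    · simp only [St.G, e1]
      exact fun b => ⟨(g1 z b).1.trans_le nx, (od z (g1 z b).1).trans_le (g1 z b).2⟩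
  · rcases cs a with a | rfl
    · simp only [St.L, e0 j a]
      exact fun b => ⟨(h.P j a z b).1.trans_le nx, (od z (h.P j a z b).1).trans (h.P j a z b).2.1,
        (h.P j a z b).2.2⟩
    · simp only [St.L, e1]
      exact fun b => ⟨((hL.new z).1 b).2, nd z b, h.fresh z ((hL.new z).1 b).1⟩
  · rcases cs a with a | rfl
    · simp only [St.pend, e0 j a]
      exact fun b => ⟨(h.pend j a z b).1.trans_le nx,
        (od z (h.pend j a z b).1).trans_le (h.pend j a z b).2⟩
    · simp [St.pend]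
  · rcases sp z a with a | a
    · exact h.dag z a c (oc z a ▸ b)
    · exact (g1 _ ((hL.cs z a).1 c b).1).1.trans_le ((hL.new z).1 a).1
  · show wlen S.1.get (S.2.1.get z) ≤ (S.1.get z).2.2.1 ∧ (S.2.1.get z).length ≤ _ ∧
      ∀ c ∈ S.2.1.get z, dp.get c.1 < dp.get z
    rcases sp z a with a | a
    · obtain ⟨d1, d2, d3⟩ := h.all z a
      have lt : ∀ c ∈ s.cs z, c.1 < s.nx := fun c b => (h.dag z a c b).trans a
      rw [oi z a, oc z a, od z a, wlen_congr fun c b => oi _ (lt c b)]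
      exact ⟨d1, d2, fun c b => (od _ (lt c b)).trans_lt (d3 c b)⟩
    · obtain ⟨d1, -, d3, -, d5, -⟩ := hL.cs z a
      have lt := fun c b => g1 _ (d1 c b).1
      rw [d5, nd z a, wlen_congr fun c b => oi _ (lt c b).1]
      exact ⟨le_rfl, d3.trans ((hπ.k _).2.trans (hπ.pm hm)), fun c b =>
        (od _ (lt c b).1).trans_lt (Nat.lt_succ_of_le (lt c b).2)⟩
  · rcases sp z a with a | a
    · obtain ⟨j, d1, d2⟩ := h.virt z a b c
      exact ⟨j, by omega, by simpa only [St.L, e0 j d1] using d2⟩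
    · exact ⟨m + 1, by omega, by simpa only [St.L, e1] using a⟩
  · rcases sp z a with a | a
    · exact ⟨(oc z a).trans (h.real z a b).1, (od z a).trans (h.real z a b).2⟩
    · exact absurd (h.fresh z ((hL.new z).1 a).1) b
  · rcases sp z a with a | a
    · show (S.1.get z).1 ≤ _ ∧ (S.1.get z).2.1 ≤ _ ∧ 1 ≤ (S.1.get z).2.2.1 ∧
        (S.1.get z).2.2.1 ≤ π.M (dp.get z) ∧ (S.1.get z).2.2.2.natAbs ≤ π.M (dp.get z) ∧
        dp.get z ≤ _
      rw [oi z a, od z a]
      exact h.num z a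
    · show (S.1.get z).1 ≤ _ ∧ (S.1.get z).2.1 ≤ _ ∧ 1 ≤ (S.1.get z).2.2.1 ∧
        (S.1.get z).2.2.1 ≤ π.M (dp.get z) ∧ (S.1.get z).2.2.2.natAbs ≤ π.M (dp.get z) ∧
        dp.get z ≤ _
      obtain ⟨d1, d2, d3, d4, d5, d6⟩ := hL.cs z a
      have n := fun c b => h.num c.1 (g1 _ (d1 c b).1).1
      have q := fun c b => hM (g1 _ (d1 c b).1).2
      have f1 := d4.ends (p := (· ≤ π.M 0)) d2 fun c b => ⟨(n c b).1, (n c b).2.1⟩
      have f2 := wlen_le (it := s.it) fun c b => (n c b).2.2.2.1.trans (q c b)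
      have f3 := wg_le (it := s.it) fun c b => (n c b).2.2.2.2.1.trans (q c b)
      have f4 := Nat.mul_le_mul_right (π.M (m + 1)) d3
      rw [nd z a, hπ.M, d5, d6]
      refine ⟨f1.1, f1.2, ?_, f2.trans f4, f3.trans f4, by omega⟩
      obtain ⟨c, w, e⟩ := List.exists_cons_of_ne_nil d2
      have := (n c (by simp [e])).2.2.1
      rw [e, wlen_cons]
      exact this.trans (Nat.le_add_right _ _)
  · rcases cs a with a | rfl
    · simp only [St.G, St.L, e0 j a]
      intro b c
      obtain ⟨d1, d2, d3⟩ := h.B j a z b c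
      rw [show (setLv s (m + 1) S dp L G).it z = s.it z from oi z (h.G j a z b).1]
      exact ⟨tc j a _ d1, tc j a _ d2, d3⟩
    · simp only [St.G, e1]
      exact fun b c => absurd c ((hG z).1 b).2
  · rcases cs a with a | a
    · simp only [St.G, St.L, e0 j (by omega), e0 _ a]
      exact h.K j a z
    · obtain rfl : j = m := by omega
      simp only [St.G, St.L, e0 j (by omega), e1]
      exact fun b c => (hG z).2 ⟨Or.inl b, c⟩
  · rcases cs a with a | rfl
    · simp only [St.G, St.L, e0 j a]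
      exact fun b c => tr a (h.Ti j a z b c)
    · simp only [St.G, St.L, e1]
      exact fun b c => absurd c (b.elim (fun b => ((hG z).1 b).2) (nbP z))
  · rcases cs a with a | rfl
    · simp only [St.brk, St.L, e0 j a]
      exact fun b => tr a (h.Tc j a C b)
    · simp [St.brk]
  · rcases sp z a with a | a
    · rw [show (setLv s (m + 1) S dp L G).it z = s.it z from oi z a]
      exact tr (by omega) (h.Tr z a b c)
    · exact absurd (h.fresh z ((hL.new z).1 a).1) c
  · rcases cs a with a | rfl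
    · simp only [St.rem, St.L, e0 j a]
      exact h.rem j a
    · simp only [St.rem, St.L, e1]
      exact ⟨fun _ b => b, fun _ b => Or.inl b⟩

end Vale.Agent.P305G
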