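import Vale.Agent.P305G.Mid
import Vale.Agent.P305Y.View

/-!
# The reconstruction of the levels
-/

namespace Vale.Agent.P305G

open Vale.Agent.P305E Vale.Agent.P305C Vale.Agent.P305M Vale.Agent.P305Q Vale.Agent.P305Y Finset

/-- One step of the removal of duplicates and of bad items. -/
def ddS (bad : Arr Bool) (a : Arr Bool × List ℕ) (z : ℕ) : Arr Bool × List ℕ :=
  if bad.get z = true ∨ a.1.get z = true then a else (a.1.set z true, z :: a.2)

@[fun_prop] theorem pure_ddS : Pure fun p : Arr Bool × (Arr Bool × List ℕ) × ℕ =>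
    ddS p.1 p.2.1 p.2.2 := by
  unfold ddS
  fun_prop

theorem ddS_fold (bad : Arr Bool) (l : List ℕ) : ∀ a : Arr Bool × List ℕ, a.2.Nodup →
    (∀ z, a.1.get z = true ↔ z ∈ a.2) → (l.foldl (ddS bad) a).2.Nodup ∧
      (l.foldl (ddS bad) a).2.length ≤ a.2.length + l.length ∧
      ∀ z, z ∈ (l.foldl (ddS bad) a).2 ↔ z ∈ a.2 ∨ z ∈ l ∧ ¬ bad.get z = true := by
  induction l with
  | nil => exact fun a h _ => ⟨h, le_rfl, by simp⟩
  | cons x l ih =>
    intro a h1 h2
    rw [List.foldl_cons]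
    by_cases h : bad.get x = true ∨ a.1.get x = true
    · rw [show ddS bad a x = a from if_pos h]
      obtain ⟨b1, b2, b3⟩ := ih a h1 h2
      refine ⟨b1, by simp only [List.length_cons]; omega, fun z => ?_⟩
      rw [b3, List.mem_cons]
      refine ⟨by tauto, ?_⟩
      rintro (c | ⟨rfl | c, c'⟩)
      · exact Or.inl c
      · exact Or.inl ((h2 _).1 (h.resolve_left c'))
      · exact Or.inr ⟨c, c'⟩
    · rw [show ddS bad a x = (a.1.set x true, x :: a.2) from if_neg h]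
      rw [not_or] at h
      obtain ⟨b1, b2, b3⟩ := ih (a.1.set x true, x :: a.2)
        (List.nodup_cons.2 ⟨fun c => h.2 ((h2 x).2 c), h1⟩) fun z => by
          rw [Arr.get_set, List.mem_cons, ← h2]
          split_ifs with c <;> simp [c]
      refine ⟨b1, by simp only [List.length_cons] at b2 ⊢; omega, fun z => ?_⟩
      rw [b3, List.mem_cons, List.mem_cons]
      refine ⟨?_, by tauto⟩
      rintro ((rfl | c) | c)
      · exact Or.inr ⟨Or.inl rfl, h.1⟩
      · exact Or.inl c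
      · exact Or.inr ⟨Or.inr c.1, c.2⟩

theorem foldl_set {α : Type} (x : α) (l : List ℕ) : ∀ (a : Arr α) (z : ℕ),
    (l.foldl (fun a y => a.set y x) a).get z = if z ∈ l then x else a.get z := by
  induction l with
  | nil => simp
  | cons y l ih =>
    intro a z
    rw [List.foldl_cons, ih, Arr.get_set]
    by_cases h : z ∈ l <;> by_cases h' : z = y <;> simp [h, h']

variable {bl : ℕ × ℕ × ℕ × ℕ × ℕ × Sto × List ℕ → M (Sto × Lvl)}

variable (bl) in
/-- The level `j` is built. -/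
def extP (b d r κ k : ℕ) (s : St) (j : ℕ) : M St := do
  let u ← appendP (s.2.2.get (j - 1)).1.1.2 (s.2.2.get (j - 1)).2.2.2.1
  let g ← foldP (ddS s.2.1.1) (Arr.const false, []) u
  let o ← bl (b, d, r, k, κ, s.1, g.2)
  let j1 ← num (j + 1)
  let dp ← foldP (fun a y => a.set y j1) s.2.1.2.1 o.2.1.1
  pure (setLv s j o.1 dp o.2 g.2)

@[fun_prop] theorem impl_extP (h : Impl bl) {α : Type} [Rep α] {b d r κ k j : α → ℕ}
    {s : α → St} (h1 : Pure b) (h2 : Pure d) (h3 : Pure r) (h4 : Pure κ)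
    (h5 : Pure k) (h6 : Pure s) (h7 : Pure j) :
    Impl fun a => extP bl (b a) (d a) (r a) (κ a) (k a) (s a) (j a) := by
  unfold extP setLv
  fun_prop

/-- The new items of the levels `l, …, l + n - 1`. -/
def desP (s : St) (l n : ℕ) : M (List ℕ) :=
  iterM (fun D i => appendP (s.2.2.get (l + i)).1.1.1 D) [] n

variable (bl) in
/-- The reconstruction. -/
def rebP (p : (ℕ × ℕ × ℕ × ℕ × ℕ × ℕ × ℕ) × ℕ × St) : M (List ℕ × St) := do
  let n ← num (p.1.2.2.2.2.2.2 + 1 - p.2.1)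
  let D ← desP p.2.2 p.2.1 n
  let a ← foldP (fun a y => a.set y true) p.2.2.2.1.1 D
  let s ← iterM (fun s i => do
    let j ← num (p.2.1 + i)
    extP bl p.1.1 p.1.2.1 p.1.2.2.1 p.1.2.2.2.2.2.1
      (if j < p.1.2.2.2.2.2.2 then p.1.2.2.2.1 else p.1.2.2.2.2.1) s j) (setBad p.2.2 a) n
  pure (D, s)

theorem impl_rebP (h : Impl bl) : Impl (rebP bl) := by
  unfold rebP desP setBad
  fun_prop

theorem desP_tri (x : Cx) (s : St) (l n : ℕ) : Tri x (desP s l n) fun D t =>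
    (∀ z, z ∈ D ↔ ∃ j, l ≤ j ∧ j < l + n ∧ z ∈ (s.L j).P) ∧
      D.length = ∑ j ∈ Ico l (l + n), (s.L j).P.length ∧ t = D.length + n := by
  refine Tri.iterM (fun n (D : List ℕ) t => (∀ z, z ∈ D ↔ ∃ j, l ≤ j ∧ j < l + n ∧ z ∈ (s.L j).P) ∧
    D.length = ∑ j ∈ Ico l (l + n), (s.L j).P.length ∧ t = D.length + n) ⟨?_, by simp, rfl⟩ ?_
  · simp only [List.not_mem_nil, false_iff]
    rintro z ⟨j, a, b, -⟩
    omega
  · rintro k D t - ⟨h1, h2, h3⟩
    simp only [Tri_appendP, List.mem_append, List.length_append]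
    refine ⟨fun z => ?_, ?_, by omega⟩
    · rw [h1]
      refine ⟨?_, fun ⟨j, a, b, c⟩ => ?_⟩
      · rintro (a | ⟨j, a, b, c⟩)
        · exact ⟨l + k, by omega, by omega, a⟩
        · exact ⟨j, a, by omega, c⟩
      · rcases (show j < l + k ∨ j = l + k by omega) with e | rfl
        · exact Or.inr ⟨j, a, e, c⟩
        · exact Or.inl c
    · rw [← Nat.add_assoc, sum_Ico_succ_top (by omega), h2, Nat.add_comm]

theorem lvlOK_mono {S S' : Sto} {G : List ℕ} {L : Lvl} {κ k γ p γ' p' : ℕ}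
    (h : LvlOK S S' G L κ k γ p) (h1 : γ ≤ γ') (h2 : p ≤ p') : LvlOK S S' G L κ k γ' p' :=
  { h with
    par := fun z => ⟨(h.par z).1.trans h1, (h.par z).2⟩
    em := fun z => ⟨(h.em z).1.trans h2, (h.em z).2⟩
    cem := fun z => ⟨(h.cem z).1.trans h2, (h.cem z).2⟩
    tl := fun z => (h.tl z).trans h1, ctl := fun z => (h.ctl z).trans h1
    cls := fun z => (h.cls z).trans h1
    cand := fun w a => ⟨(h.cand w a).1, (h.cand w a).2.1.trans h2, (h.cand w a).2.2⟩
    sound := fun bad brk φ' ψ K a1 a2 a3 a4 a5 a6 => by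
      obtain ⟨φ, b1, b2⟩ := h.sound bad brk φ' ψ K a1 a2 a3 a4 a5 a6
      exact ⟨φ, fun z a b => (b1 z a b).mono (mul_le_mul_of_nonneg_right (Nat.cast_le.2 h1)
        ((Nat.cast_nonneg _).trans a1)), b2⟩ }

theorem buildOK_succ {c : ℕ} (h : BuildOK bl c) : BuildOK bl (c + 1) := by
  refine ⟨h.impl, fun B e b d q k κ S G a1 a2 a3 a4 a5 a6 a7 a8 a9 b1 b2 b3 b4 b5 => ?_⟩
  have e1 : c * d ≤ (c + 1) * d := Nat.mul_le_mul_right _ c.le_succ
  have e2 : (b + 2) ^ (c * d) ≤ (b + 2) ^ ((c + 1) * d) := Nat.pow_le_pow_right (by omega) e1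
  have e3 : ((b + 2) * k) ^ (c * d) ≤ ((b + 2) * k) ^ ((c + 1) * d) :=
    Nat.pow_le_pow_right (Nat.mul_pos (by omega) a6) e1
  refine (h.spec B e b d q k κ S G a1 a2 a3 a4 a5 a6 a7 a8 a9 b1 b2 b3 b4
    ((Nat.pow_le_pow_right (by omega) (Nat.mul_le_mul_right _ c.le_succ)).trans b5)).mono
    fun r t ⟨c1, c2, c3, c4⟩ => ⟨lvlOK_mono c1 e2 e3, c2.trans ?_, c3, c4.trans ?_⟩
  · exact Nat.pow_le_pow_left (Nat.mul_le_mul_right _ e2) 2
  · exact Nat.mul_le_mul_right _ (Nat.mul_le_mul_left _ e3)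

/-- What the construction of one level does. -/
structure Ext (π : Par) (j x cost : ℕ) (s s' : St) (t : ℕ) : Prop where
  mi : MI π s' (j + 1) j
  low : ∀ i < j, s'.2.2.get i = s.2.2.get i
  old : ∀ z < s.nx, s'.it z = s.it z ∧ s'.cs z = s.cs z ∧ s'.dep z = s.dep z
  re : s'.re = s.re
  bad : s'.2.1.1 = s.2.1.1
  pend : s'.pend j = []
  K : (s'.L j).K.length ≤ x
  P : (s'.L j).P.length + (s'.rem j).length ≤ cost
  nx : s.nx ≤ s'.nx
  time : t + s'.nx ≤ s.nx + 5 * cost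

theorem extP_vt {c B e b d q j n x cost : ℕ} {π : Par} {s : St} (hb : BuildOK bl c) (hπ : π.OK)
    (h : MI π s (j + 1) (j + 1)) (hj : j + 1 ≤ π.Lm) (hγ : π.γ = (b + 2) ^ (c * d))
    (hp : π.p (j + 1) = ((b + 2) * π.k (j + 1)) ^ (c * d))
    (hn : (s.L j).K.length + (s.pend j).length ≤ n) (hn' : n ≤ 2 ^ b)
    (hx : (π.γ * n) ^ 2 ≤ π.k (j + 1) * x ^ 2 ∨ 4 * n < π.k (j + 1))
    (hc : q * π.p (j + 1) * (n + 1) ≤ cost) (hM : π.M π.Lm ≤ 2 ^ b) (hnx : s.nx ≤ 2 ^ b)
    (hκ : π.κ ≤ 2 ^ b) (hk : π.k (j + 1) ≤ 2 ^ b) (d1 : 1 ≤ d) (d2 : d ≤ b)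
    (d3 : (b + 2) ^ d ≤ 2 ^ b) (q1 : 2 ^ b ≤ q ^ d) (q2 : 1 ≤ q) (q3 : q ≤ 2 ^ b) (he : e ≤ b)
    (hB : 2 ^ (c * (b + 1)) ≤ B) (hB' : j + 2 ≤ B) :
    Vt e B (extP bl b d q π.κ (π.k (j + 1)) s (j + 1)) (Ext π (j + 1) x cost s) := by
  unfold extP
  refine Vt.tbind' ?_
  simp only [Tri_appendP, Nat.add_sub_cancel]
  refine Vt.tbind' ?_
  simp only [Tri_foldP]
  obtain ⟨g1, g2, g3⟩ := ddS_fold s.2.1.1 ((s.L j).K ++ s.pend j) (Arr.const false, [])
    List.nodup_nil (by simp)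
  generalize List.foldl (ddS s.2.1.1) (Arr.const false, []) _ = g at g1 g2 g3 ⊢
  simp only [List.length_nil, List.length_append, List.not_mem_nil, false_or, List.mem_append,
    Nat.zero_add] at g2 g3
  have hM' := par_mono hπ
  have k1 := (hπ.k (j + 1)).1
  refine (hb.spec B e b d q _ π.κ s.1 g.2 g1 (by omega) (fun z a => ?_) hnx hκ k1 hk d1 d2 d3 q1
    q3 he hB).bind fun o t ⟨o1, o2, o3, o4⟩ => ?_
  · obtain ⟨a1, a2⟩ := h.src ((g3 z).1 a).1
    obtain ⟨b1, b2, b3, b4, b5, -⟩ := h.num z a1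
    have e0 := (hM' π.Lm.zero_le).trans hM
    have e1 := (hM' (a2.trans hj)).trans hM
    exact ⟨a1, b1.trans e0, b2.trans e0, b3, b4.trans e1, b5.trans e1⟩
  rw [← hγ, ← hp] at o1
  rw [← hγ] at o2
  rw [← hp] at o4
  refine Vt.of_tri (cn := true) ?_
  simp only [Tri_bind, Tri_num, Tri_foldP, Tri_pure]
  have e1 : ∀ y, (s.2.2.set (j + 1) y).get (j + 1) = y := fun y => Arr.get_set_self _ _ _
  have c1 : q * π.p (j + 1) * (g.2.length + 1) ≤ cost :=
    (Nat.mul_le_mul_left _ (by omega)).trans hc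
  have c2 : n + 1 ≤ cost := (Nat.le_mul_of_pos_left _
    (Nat.mul_pos q2 (k1.trans (hπ.k _).2))).trans hc
  have c3 : o.1.2.2 ≤ s.nx + o.2.P.length := by
    have := (List.subperm_of_subset (List.nodup_range' (s := s.nx) (n := o.1.2.2 - s.nx))
      (l₂ := o.2.P) fun z a => (o1.new z).2 (by
        rw [List.mem_range'_1] at a
        exact ⟨a.1, by have : s.nx ≤ o.1.2.2 := o1.nx; omega⟩)).length_le
    rw [List.length_range'] at this
    omega
  refine ⟨hB', h.ext hπ hj g3 o1 (foldl_set _ _ _), fun i a => Arr.get_set_ne _ (by omega) _,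
    fun z a => ⟨(o1.old z a).1, (o1.old z a).2, ?_⟩, rfl, rfl, by simp only [St.pend, e1], ?_, ?_,
    o1.nx, ?_⟩
  · refine (foldl_set _ _ _ _).trans (if_neg fun a' => ?_)
    exact absurd a (not_lt.2 ((o1.new z).1 a').1)
  · simp only [St.L, e1]
    rcases hx with a | a
    · have := o2.trans ((Nat.pow_le_pow_left (Nat.mul_le_mul_left _ (g2.trans hn)) 2).trans a)
      exact (Nat.pow_le_pow_iff_left (by omega)).1 (Nat.le_of_mul_le_mul_left this k1)
    · rw [o3 (by omega)]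
      exact x.zero_le
  · simp only [St.L, St.rem, e1]
    exact (by omega : o.2.P.length + o.2.cand.length ≤ cost)
  · show _ + o.1.2.2 ≤ s.nx + _
    simp only [List.length_append, Lvl.P, Lvl.K, St.L, St.pend] at *
    omega

theorem parOf_ok' {c b d k kl κ Lm M : ℕ} (hc : 1 ≤ c) (hd : 1 ≤ d) (hk : 1 ≤ k) (hl : k ≤ kl) :
    (parOf c b d k kl κ Lm M).OK := by
  have e : ∀ j, 1 ≤ if j < Lm then k else kl := fun j => by split_ifs <;> omega
  refine ⟨Nat.pow_pos (by omega), Nat.pow_pos (Nat.mul_pos (by omega) (e 0)), fun i j a => ?_,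
    fun j => ⟨e j, ?_⟩, fun _ => rfl⟩
  · refine Nat.pow_le_pow_left (Nat.mul_le_mul_left _ ?_) _
    split_ifs <;> omega
  · exact (Nat.le_mul_of_pos_left _ (by omega)).trans
      (Nat.le_self_pow (Nat.mul_pos hc hd).ne' _)

theorem mM_eq (k kl Lm M : ℕ) : ∀ j ≤ Lm, mM (fun j => if j < Lm then k else kl) M j = k ^ j * M
  | 0, _ => by simp [mM]
  | j + 1, h => by
    rw [mM, mM_eq k kl Lm M j (by omega), if_pos (by omega : j < Lm)]
    ring

/-- **The block REBUILD.** -/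
theorem rebuild (h : BUILD) : REBUILD := by
  obtain ⟨bl, c0, h0⟩ := h
  have hb := buildOK_succ h0
  generalize hc : c0 + 1 = c at hb
  have c1 : 1 ≤ c := by omega
  refine ⟨rebP bl, c, impl_rebP hb.impl, c1, fun B e b d q k kl κ Lm M l m x cost s hs l1 l2 hm h1
    h2 h3 k1 k2 k3 k4 hκ d1 d2 d3 q1 q2 q3 he hL hn hB => ?_⟩
  have hπ := parOf_ok' (b := b) (κ := κ) (Lm := Lm) (M := M) c1 d1 k1 k2
  set π := parOf c b d k kl κ Lm M with eπ
  have b1 : b + 2 ≤ B := ((Nat.le_self_pow (by omega) _).trans d3).trans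
    ((Nat.pow_le_pow_right (by omega) (by nlinarith)).trans hB)
  obtain ⟨n, rfl⟩ : ∃ n, Lm = l + n := ⟨Lm - l, by omega⟩
  have e0 : l + n + 1 - l = n + 1 := by omega
  have e1 : Icc l (l + n) = Ico l (l + (n + 1)) := by
    ext j
    simp only [mem_Icc, mem_Ico]
    omega
  have cp : ∀ j ≤ l + n, l ≤ j → 1 ≤ cost j := fun j a a' =>
    (Nat.mul_pos (Nat.mul_pos q2 ((hπ.k j).1.trans (hπ.k j).2)) (by omega)).trans_le
      (h1 j a a').2.2
  have s1 : n + 1 ≤ ∑ j ∈ Ico l (l + (n + 1)), cost j := by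
    have := card_nsmul_le_sum (Ico l (l + (n + 1))) cost 1 fun j a => by
      rw [mem_Ico] at a
      exact cp j (by omega) a.1
    simpa using this
  rw [e1] at hn
  unfold rebP
  refine Vt.tbind' ?_
  simp only [Tri_num, e0]
  refine ⟨by omega, Vt.tbind (cn := true) (desP_tri _ s l (n + 1)) fun D t0 ⟨D1, D2, D3⟩ => ?_⟩
  have D4 : D.length ≤ ∑ j ∈ Ico l (l + (n + 1)), cost j :=
    D2.trans_le (sum_le_sum fun j a => by
      rw [mem_Ico] at a
      exact (h1 j (by omega) a.1).2.1)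
  refine Vt.tbind' ?_
  simp only [Tri_foldP]
  have ha : ∀ z, (D.foldl (fun a y => a.set y true) s.2.1.1).get z = true ↔ s.bad z ∨ z ∈ D :=
    fun z => by
      rw [foldl_set]
      split_ifs with a <;> simp [a]
  generalize D.foldl (fun a y => a.set y true) s.2.1.1 = a at ha
  have m0 := (MI.of_SI hs).cut (l := l) (by show l ≤ l + n + 1; omega) ha D1
  refine (Vt.iterM (fun i (s' : St) t => MI π s' (l + i) (if i = 0 then l else l + i - 1) ∧
    (∀ j < l, s'.2.2.get j = s.2.2.get j) ∧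
    (∀ z < s.nx, s'.it z = s.it z ∧ s'.cs z = s.cs z ∧ s'.dep z = s.dep z) ∧ s'.re = s.re ∧
    s'.2.1.1 = a ∧ (∀ j < l + i, l ≤ j → s'.pend j = [] ∧
      (s'.L j).K.length ≤ (if j < l + n then x j else 0) ∧
      (s'.L j).P.length + (s'.rem j).length ≤ cost j) ∧ s.nx ≤ s'.nx ∧
    t + s'.nx ≤ s.nx + 6 * ∑ j ∈ Ico l (l + i), cost j) ?_ ?_).bind ?_
  · exact ⟨m0, fun _ _ => rfl, fun _ _ => ⟨rfl, rfl, rfl⟩, rfl, rfl, fun j a b => by omega, le_rfl,
      by simp⟩
  · rintro i s' t hi ⟨i1, i2, i3, i4, i5, i6, i7, i8⟩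
    obtain ⟨j, hj⟩ : ∃ j, l + i = j + 1 := ⟨l + i - 1, by omega⟩
    have s2 : ∑ j ∈ Ico l (l + i), cost j ≤ ∑ j ∈ Ico l (l + (n + 1)), cost j :=
      sum_le_sum_of_subset (Ico_subset_Ico le_rfl (by omega))
    have s3 : ∑ j ∈ Ico l (l + (i + 1)), cost j = ∑ j ∈ Ico l (l + i), cost j + cost (j + 1) := by
      rw [← Nat.add_assoc, sum_Ico_succ_top (by omega), hj]
    obtain ⟨f1, -, f3⟩ := h1 (j + 1) (by omega) (by omega)
    have f4 := cp (j + 1) (by omega) (by omega)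
    refine Vt.tbind' ?_
    simp only [Tri_num, hj]
    rw [hj] at i1 i6
    refine ⟨by omega, (extP_vt (π := π) (x := if j + 1 < l + n then x (j + 1) else 0) hb hπ
      (i1.mono (by split_ifs <;> omega)) (by show _ ≤ l + n; omega) rfl rfl (n := m (j + 1)) ?_ f1
      ?_ f3 ((mM_eq _ _ _ _ _ le_rfl).trans_le k4) (by omega) hκ ?_ d1 d2 d3 q1 q2 q3 he hB
      (by omega)).mono fun s2 t2 r => ?_⟩
    · rcases Nat.eq_zero_or_pos i with rfl | a
      · obtain rfl : l = j + 1 := hj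
        simpa only [St.L, St.pend, i2 j (by omega), Nat.add_sub_cancel] using hm
      · obtain ⟨a1, a2, -⟩ := i6 j (by omega) (by omega)
        rw [if_pos (by omega)] at a2
        rw [a1, List.length_nil]
        exact a2.trans (h2 j (by omega) (by omega)).2
    · by_cases a : j + 1 < l + n
      · exact Or.inl (by simpa only [eπ, parOf, if_pos a] using (h2 _ a (by omega)).1)
      · refine Or.inr ?_
        rw [show j + 1 = l + n by omega]
        simpa only [eπ, parOf, lt_irrefl, if_false] using h3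
    · show (if _ then _ else _) ≤ _
      split_ifs <;> omega
    · have r1 := r.nx
      have r2 := r.time
      refine ⟨?_, fun y a => (r.low y (by omega)).trans (i2 y a), fun z a => ?_, r.re.trans i4,
        r.bad.trans i5, fun y a a' => ?_, by omega, by omega⟩
      · rw [← Nat.add_assoc, hj, if_neg (by omega)]
        exact r.mi
      · obtain ⟨a1, a2, a3⟩ := r.old z (by omega)
        obtain ⟨a4, a5, a6⟩ := i3 z a
        exact ⟨a1.trans a4, a2.trans a5, a3.trans a6⟩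
      · rcases (show y < j + 1 ∨ y = j + 1 by omega) with a | rfl
        · simpa only [St.L, St.pend, St.rem, r.low y a] using i6 y a a'
        · exact ⟨r.pend, r.K, r.P⟩
  · rintro s' t ⟨i1, i2, i3, i4, i5, i6, i7, i8⟩
    rw [if_neg (by omega)] at i1
    refine Vt.pure ⟨MI.to_SI i1 ?_, i7, i3, i4, fun y => by rw [← ha, ← i5], fun y a => ?_, i2,
      fun j a a' => ?_, ?_⟩
    · have := (i6 (l + n) (by omega) (by omega)).2.1
      rw [if_neg (lt_irrefl _)] at this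
      exact List.length_eq_zero_iff.1 (Nat.le_zero.1 this)
    · obtain ⟨j, -, a2, a3⟩ := (D1 y).1 a
      have := hs.P j (by show j ≤ l + n; omega) y a3
      exact ⟨this.1, this.2.2⟩
    · obtain ⟨a1, a2, a3⟩ := i6 j (by have : j ≤ l + n := a; omega) a'
      exact ⟨a1, a2.trans (by split_ifs <;> omega), a3⟩
    · show _ + D.length + s'.nx ≤ s.nx + 40 * ∑ j ∈ Icc l (l + n), cost j
      rw [e1]
      omega

end Vale.Agent.P305G
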